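import Mathlib

/-!
# Subnormal chains with cyclic (or finite) factors

Internal machinery for P188: the class of groups having a finite subnormal series whose
factors are cyclic (`P = False`) or cyclic-or-finite (`P = True`).
-/

namespace Vale.Agent.Lib.P188

open Subgroup

universe u v

section Step

variable {G : Type u} [Group G] {H : Type v} [Group H]

/-- One step of a subnormal series: `A ≤ B`, `A` normal in `B`, and `B/A` cyclic
(or, if `P` holds, finite). -/
def Step (P : Prop) (A B : Subgroup G) : Prop :=
  A ≤ B ∧ ∃ _ : (A.subgroupOf B).Normal,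
    IsCyclic (B ⧸ A.subgroupOf B) ∨ (P ∧ Finite (B ⧸ A.subgroupOf B))

/-- A chain of steps from `A` to `B`. -/
def Chain (P : Prop) (A B : Subgroup G) : Prop := Relation.ReflTransGen (Step P) A B

/-- The group has a finite subnormal series with cyclic (or finite, if `P`) factors. -/
def Poly (P : Prop) (G : Type u) [Group G] : Prop := Chain P (⊥ : Subgroup G) ⊤

theorem Step.mono {P Q : Prop} (h : P → Q) {A B : Subgroup G} (hs : Step P A B) : Step Q A B := by
  obtain ⟨hle, hn, hc⟩ := hs
  refine ⟨hle, hn, ?_⟩
  rcases hc with hc | ⟨hp, hf⟩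
  · exact Or.inl hc
  · exact Or.inr ⟨h hp, hf⟩

theorem Chain.mono {P Q : Prop} (h : P → Q) {A B : Subgroup G} (hs : Chain P A B) :
    Chain Q A B :=
  Relation.ReflTransGen.mono (fun _ _ hab => Step.mono h hab) _ _ hs

theorem Chain.le {P : Prop} {A B : Subgroup G} (hs : Chain P A B) : A ≤ B := by
  induction hs with
  | refl => exact le_rfl
  | tail _ h ih => exact ih.trans h.1

/-- transfer of cyclic/finite quotients along a map inducing an injection on quotients -/
theorem quot_of_comap {K : Type u} [Group K] {K' : Type v} [Group K'] (M : Subgroup K) [M.Normal]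
    (M' : Subgroup K') [M'.Normal] (g : K' →* K) (hM : ∀ x, x ∈ M' ↔ g x ∈ M) (P : Prop)
    (h : IsCyclic (K ⧸ M) ∨ (P ∧ Finite (K ⧸ M))) :
    IsCyclic (K' ⧸ M') ∨ (P ∧ Finite (K' ⧸ M')) := by
  have hle : M' ≤ M.comap g := fun x hx => (hM x).1 hx
  have hinj : Function.Injective (QuotientGroup.map M' M g hle) := by
    rw [injective_iff_map_eq_one]
    intro a
    induction a using QuotientGroup.induction_on with
    | H x =>
      intro hx
      rw [QuotientGroup.map_mk, QuotientGroup.eq_one_iff] at hx
      rw [QuotientGroup.eq_one_iff]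
      exact (hM x).2 hx
  rcases h with h | ⟨hp, hf⟩
  · exact Or.inl (isCyclic_of_injective _ hinj)
  · exact Or.inr ⟨hp, Finite.of_injective _ hinj⟩

/-- transfer of cyclic/finite quotients along a surjection -/
theorem quot_of_map {K : Type u} [Group K] {K' : Type v} [Group K'] (M : Subgroup K) [M.Normal]
    (M' : Subgroup K') [M'.Normal] (g : K →* K') (hg : Function.Surjective g)
    (hM : ∀ x, x ∈ M → g x ∈ M') (P : Prop)
    (h : IsCyclic (K ⧸ M) ∨ (P ∧ Finite (K ⧸ M))) :
    IsCyclic (K' ⧸ M') ∨ (P ∧ Finite (K' ⧸ M')) := by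
  have hle : M ≤ M'.comap g := fun x hx => hM x hx
  have hsurj : Function.Surjective (QuotientGroup.map M M' g hle) := by
    intro a
    induction a using QuotientGroup.induction_on with
    | H x =>
      obtain ⟨y, rfl⟩ := hg x
      exact ⟨(y : K ⧸ M), by rw [QuotientGroup.map_mk]⟩
  rcases h with h | ⟨hp, hf⟩
  · exact Or.inl (isCyclic_of_surjective _ hsurj)
  · exact Or.inr ⟨hp, Finite.of_surjective _ hsurj⟩

theorem Step.comap {P : Prop} (f : H →* G) {A B : Subgroup G} (hs : Step P A B) :
    Step P (A.comap f) (B.comap f) := by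
  obtain ⟨hle, hn, hc⟩ := hs
  have hle' : A.comap f ≤ B.comap f := Subgroup.comap_mono hle
  have hn' : ((A.comap f).subgroupOf (B.comap f)).Normal := by
    rw [normal_subgroupOf_iff hle']
    rw [normal_subgroupOf_iff hle] at hn
    intro h k hh hk
    simp only [Subgroup.mem_comap, map_mul, map_inv] at *
    exact hn _ _ hh hk
  refine ⟨hle', hn', ?_⟩
  refine quot_of_comap (A.subgroupOf B) _ (f.subgroupComap B) ?_ P hc
  intro x
  simp only [Subgroup.mem_subgroupOf, Subgroup.mem_comap]
  rfl

theorem Step.map {P : Prop} (f : G →* H) {A B : Subgroup G} (hs : Step P A B) :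
    Step P (A.map f) (B.map f) := by
  obtain ⟨hle, hn, hc⟩ := hs
  have hle' : A.map f ≤ B.map f := Subgroup.map_mono hle
  have hn' : ((A.map f).subgroupOf (B.map f)).Normal := by
    rw [normal_subgroupOf_iff hle']
    rw [normal_subgroupOf_iff hle] at hn
    rintro _ _ ⟨a, ha, rfl⟩ ⟨b, hb, rfl⟩
    exact ⟨b * a * b⁻¹, hn _ _ ha hb, by simp⟩
  refine ⟨hle', hn', ?_⟩
  refine quot_of_map (A.subgroupOf B) _ (f.subgroupMap B) (f.subgroupMap_surjective B) ?_ P hc
  intro x hx
  rw [Subgroup.mem_subgroupOf] at hx ⊢
  exact ⟨x, hx, rfl⟩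

theorem Chain.comap {P : Prop} (f : H →* G) {A B : Subgroup G} (hs : Chain P A B) :
    Chain P (A.comap f) (B.comap f) :=
  Relation.ReflTransGen.lift (Subgroup.comap f) (fun _ _ h => Step.comap f h) _ _ hs

theorem Chain.map {P : Prop} (f : G →* H) {A B : Subgroup G} (hs : Chain P A B) :
    Chain P (A.map f) (B.map f) :=
  Relation.ReflTransGen.lift (Subgroup.map f) (fun _ _ h => Step.map f h) _ _ hs

theorem Chain.trans {P : Prop} {A B C : Subgroup G} (h1 : Chain P A B) (h2 : Chain P B C) :
    Chain P A C := Relation.ReflTransGen.trans h1 h2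

/-- chain from the kernel to the top, pulled back from the target -/
theorem Poly.chain_ker {P : Prop} (f : H →* G) (hG : Poly P G) : Chain P f.ker ⊤ := by
  have := Chain.comap f hG
  simpa [MonoidHom.comap_bot] using this

theorem Poly.of_injective {P : Prop} (f : H →* G) (hf : Function.Injective f) (hG : Poly P G) :
    Poly P H := by
  have := Poly.chain_ker f hG
  rwa [(MonoidHom.ker_eq_bot_iff f).2 hf] at this

theorem Poly.of_surjective {P : Prop} (f : G →* H) (hf : Function.Surjective f) (hG : Poly P G) :
    Poly P H := by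
  have := Chain.map f hG
  rw [Subgroup.map_bot, ← MonoidHom.range_eq_map, MonoidHom.range_eq_top.2 hf] at this
  exact this

theorem Poly.subgroup {P : Prop} (K : Subgroup G) (hG : Poly P G) : Poly P K :=
  Poly.of_injective K.subtype K.subtype_injective hG

theorem Poly.quotient {P : Prop} (N : Subgroup G) [N.Normal] (hG : Poly P G) : Poly P (G ⧸ N) :=
  Poly.of_surjective (QuotientGroup.mk' N) (QuotientGroup.mk'_surjective N) hG

theorem Poly.of_mulEquiv {P : Prop} (e : G ≃* H) (hG : Poly P G) : Poly P H :=
  Poly.of_surjective e.toMonoidHom e.surjective hG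

/-- a subgroup which is `Poly` as a group gives a chain from `⊥` to it -/
theorem Poly.chain_bot {P : Prop} (K : Subgroup G) (hK : Poly P K) : Chain P ⊥ K := by
  have := Chain.map K.subtype hK
  rw [Subgroup.map_bot, ← MonoidHom.range_eq_map, Subgroup.range_subtype] at this
  exact this

theorem Chain.poly {P : Prop} {K : Subgroup G} (hK : Chain P ⊥ K) : Poly P K := by
  have := Chain.comap K.subtype hK
  rw [MonoidHom.comap_bot, Subgroup.ker_subtype] at this
  have h2 : K.comap K.subtype = ⊤ := by
    ext x; simp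
  rwa [h2] at this

/-- extensions -/
theorem Poly.ext {P : Prop} (f : H →* G) (hG : Poly P G) (hK : Poly P f.ker) : Poly P H :=
  (Poly.chain_bot f.ker hK).trans (Poly.chain_ker f hG)

theorem Poly.mono {P Q : Prop} (h : P → Q) (hG : Poly P G) : Poly Q G := Chain.mono h hG

end Step

end Vale.Agent.Lib.P188
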