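import Mathlib
import Vale.Agent.Lib.P188.Chain

/-!
# Basic facts on groups with cyclic-or-finite subnormal series
-/

namespace Vale.Agent.Lib.P188

open Subgroup

universe u v

section FG

variable {K : Type u} [Group K]

/-- an extension of a finitely generated group by a finitely generated group is f.g. -/
theorem fg_of_fg_normal_of_fg_quotient (N : Subgroup K) [N.Normal] (hN : N.FG)
    (hQ : Group.FG (K ⧸ N)) : Group.FG K := by
  classical
  obtain ⟨S, hS, hSfin⟩ := Group.fg_iff.1 hQ
  obtain ⟨U, hU, hUfin⟩ := (Subgroup.fg_iff N).1 hN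
  refine Group.fg_iff.2 ⟨(Quotient.out '' S) ∪ U, ?_, (hSfin.image _).union hUfin⟩
  set L := Subgroup.closure ((Quotient.out '' S) ∪ U) with hL
  have hNL : N ≤ L := by
    rw [← hU]
    exact Subgroup.closure_mono Set.subset_union_right
  have hmap : L.map (QuotientGroup.mk' N) = ⊤ := by
    rw [eq_top_iff, ← hS, Subgroup.closure_le]
    intro s hs
    refine ⟨Quotient.out s, ?_, ?_⟩
    · exact Subgroup.subset_closure (Or.inl ⟨s, hs, rfl⟩)
    · simp
  rw [eq_top_iff]
  intro x _
  have hx : QuotientGroup.mk' N x ∈ L.map (QuotientGroup.mk' N) := by rw [hmap]; trivial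
  obtain ⟨y, hy, hyx⟩ := hx
  have : y⁻¹ * x ∈ N := by
    rw [← QuotientGroup.eq]
    exact hyx
  have h2 : y * (y⁻¹ * x) ∈ L := L.mul_mem hy (hNL this)
  simpa using h2

theorem finite_of_finite_normal_of_finite_quotient (N : Subgroup K) (hN : Finite N)
    (hQ : Finite (K ⧸ N)) : Finite K :=
  Finite.of_equiv _ (Subgroup.groupEquivQuotientProdSubgroup (s := N)).symm

theorem finite_of_isCyclic_of_torsion [IsCyclic K] (ht : ∀ x : K, IsOfFinOrder x) : Finite K := by
  obtain ⟨g, hg⟩ := IsCyclic.exists_generator (α := K)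
  have h1 : (Subgroup.zpowers g : Set K).Finite := finite_zpowers.2 (ht g)
  have h2 : (Subgroup.zpowers g : Set K) = Set.univ := by
    ext x; simp [hg x]
  rw [h2] at h1
  exact Set.finite_univ_iff.1 h1

end FG

section Chains

variable {G : Type u} [Group G]

theorem Step.fg {P : Prop} {A B : Subgroup G} (hs : Step P A B) (hA : A.FG) : B.FG := by
  obtain ⟨hle, hn, hc⟩ := hs
  rw [← Group.fg_iff_subgroup_fg] at hA ⊢
  have h1 : (A.subgroupOf B).FG := by
    rw [← Group.fg_iff_subgroup_fg]
    exact Group.fg_of_surjective (f := (Subgroup.subgroupOfEquivOfLe hle).symm.toMonoidHom)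
      (Subgroup.subgroupOfEquivOfLe hle).symm.surjective
  refine fg_of_fg_normal_of_fg_quotient (A.subgroupOf B) h1 ?_
  rcases hc with hc | ⟨_, hf⟩
  · obtain ⟨g, hg⟩ := IsCyclic.exists_generator (α := B ⧸ A.subgroupOf B)
    refine Group.fg_iff.2 ⟨{g}, ?_, Set.finite_singleton g⟩
    rw [eq_top_iff]
    intro x _
    rw [Subgroup.mem_closure_singleton]
    exact Subgroup.mem_zpowers_iff.1 (hg x)
  · infer_instance

theorem Chain.fg {P : Prop} {A B : Subgroup G} (hs : Chain P A B) (hA : A.FG) : B.FG := by
  induction hs with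
  | refl => exact hA
  | tail _ h ih => exact h.fg ih

theorem Poly.fg {P : Prop} (hG : Poly P G) : Group.FG G := by
  have hbot : (⊥ : Subgroup G).FG := ⟨∅, by simp⟩
  have : (⊤ : Subgroup G).FG := Chain.fg hG hbot
  exact ⟨this⟩

theorem Poly.subgroup_fg {P : Prop} (hG : Poly P G) (K : Subgroup G) : K.FG := by
  rw [← Group.fg_iff_subgroup_fg]
  exact (hG.subgroup K).fg

theorem Step.finite_of_torsion {P : Prop} {A B : Subgroup G} (hs : Step P A B) (hA : Finite A)
    (ht : ∀ x ∈ B, IsOfFinOrder x) : Finite B := by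
  obtain ⟨hle, hn, hc⟩ := hs
  have h1 : Finite (A.subgroupOf B) :=
    Finite.of_equiv _ (Subgroup.subgroupOfEquivOfLe hle).symm.toEquiv
  refine finite_of_finite_normal_of_finite_quotient (A.subgroupOf B) h1 ?_
  rcases hc with hc | ⟨_, hf⟩
  · refine finite_of_isCyclic_of_torsion ?_
    intro q
    induction q using QuotientGroup.induction_on with
    | H x =>
      have hx : IsOfFinOrder x := by
        have := ht x.1 x.2
        exact (Submonoid.isOfFinOrder_coe (H := B.toSubmonoid) (x := x)).1 this
      exact (QuotientGroup.mk' (A.subgroupOf B)).isOfFinOrder hx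
  · exact hf

theorem Chain.finite_of_torsion {P : Prop} {B : Subgroup G} (hs : Chain P ⊥ B)
    (ht : ∀ x ∈ B, IsOfFinOrder x) : Finite B := by
  induction hs with
  | refl => infer_instance
  | tail h1 h ih => exact h.finite_of_torsion (ih (fun x hx => ht x (h.1 hx))) ht

theorem Poly.finite_of_torsion {P : Prop} (hG : Poly P G) (ht : ∀ x : G, IsOfFinOrder x) :
    Finite G := by
  have : Finite (⊤ : Subgroup G) := Chain.finite_of_torsion hG (fun x _ => ht x)
  exact Finite.of_equiv _ Subgroup.topEquiv.toEquiv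

/-- finite groups -/
theorem Poly.of_finite [Finite G] : Poly True G := by
  refine Relation.ReflTransGen.single ⟨bot_le, ?_, Or.inr ⟨trivial, ?_⟩⟩
  · rw [normal_subgroupOf_iff bot_le]
    intro h k hh _
    rw [Subgroup.mem_bot] at hh
    subst hh
    simp
  · infer_instance

/-- adjoining an element normalising `A` is a cyclic step -/
theorem step_sup_zpowers (P : Prop) (A : Subgroup G) (t : G)
    (ht : t ∈ Subgroup.normalizer (A : Set G)) : Step P A (A ⊔ Subgroup.zpowers t) := by
  set B := A ⊔ Subgroup.zpowers t with hB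
  have hle : A ≤ B := le_sup_left
  have htB : t ∈ B := (le_sup_right : Subgroup.zpowers t ≤ B) (Subgroup.mem_zpowers t)
  have hn : (A.subgroupOf B).Normal := by
    rw [normal_subgroupOf_iff_le_normalizer hle]
    refine sup_le Subgroup.le_normalizer ?_
    rw [Subgroup.zpowers_le]
    exact ht
  refine ⟨hle, hn, Or.inl ⟨⟨QuotientGroup.mk (⟨t, htB⟩ : B), ?_⟩⟩⟩
  intro q
  induction q using QuotientGroup.induction_on with
  | H x =>
    have htop : (A.subgroupOf B) ⊔ ((Subgroup.zpowers t).subgroupOf B) = ⊤ := by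
      rw [← Subgroup.subgroupOf_sup hle le_sup_right, ← hB, Subgroup.subgroupOf_self]
    have hx : x ∈ (A.subgroupOf B) ⊔ ((Subgroup.zpowers t).subgroupOf B) := by
      rw [htop]; trivial
    rw [← SetLike.mem_coe, Subgroup.normal_mul] at hx
    obtain ⟨a, ha, z, hz, rfl⟩ := hx
    have hz' : (z : G) ∈ Subgroup.zpowers t := hz
    obtain ⟨k, hk⟩ := Subgroup.mem_zpowers_iff.1 hz'
    refine Subgroup.mem_zpowers_iff.2 ⟨k, ?_⟩
    have hzk : z = (⟨t, htB⟩ : B) ^ k := by
      ext
      simp [hk]
    rw [hzk, ← QuotientGroup.mk_zpow, QuotientGroup.eq]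
    have : ((⟨t, htB⟩ : B) ^ k)⁻¹ * (a * (⟨t, htB⟩ : B) ^ k) ∈ A.subgroupOf B := by
      have := hn.conj_mem a ha (((⟨t, htB⟩ : B) ^ k)⁻¹)
      simpa [mul_assoc] using this
    exact this

/-- finitely generated abelian groups are polycyclic -/
theorem Poly.of_comm_fg (P : Prop) (A : Type u) [CommGroup A] [hA : Group.FG A] : Poly P A := by
  classical
  obtain ⟨S, hS⟩ := hA.out
  have key : ∀ S : Finset A, Chain P ⊥ (Subgroup.closure (S : Set A)) := by
    intro S
    induction S using Finset.induction_on with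
    | empty =>
      simp only [Finset.coe_empty, Subgroup.closure_empty]
      exact Relation.ReflTransGen.refl
    | insert a S _ ih =>
      refine ih.tail ?_
      have h1 : Subgroup.closure ((insert a S : Finset A) : Set A)
          = Subgroup.closure (S : Set A) ⊔ Subgroup.zpowers a := by
        rw [Finset.coe_insert, Set.insert_eq, Subgroup.closure_union, sup_comm,
          Subgroup.zpowers_eq_closure]
      rw [h1]
      refine step_sup_zpowers P _ a ?_
      rw [Subgroup.normalizer_eq_top]
      trivial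
  have := key S
  rwa [hS] at this

end Chains

end Vale.Agent.Lib.P188
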