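import Mathlib
import Vale.Agent.Lib.P188.Basic

/-!
# Groups with a proper quasimorphism to a finite-dimensional real vector space
-/

namespace Vale.Agent.Lib.P188

open Subgroup Filter Topology

universe u v

section Homog

variable {N : Type u} [Group N] {E : Type v} [NormedAddCommGroup E] [NormedSpace ℝ E]

/-- the approximating sequence of the homogenisation -/
noncomputable def homSeq (q : N → E) (x : N) (k : ℕ) : E := ((2 : ℝ) ^ k)⁻¹ • q (x ^ (2 ^ k))

theorem homSeq_dist (q : N → E) (D : ℝ) (hq : ∀ x y, ‖q (x * y) - q x - q y‖ ≤ D) (x : N)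
    (k : ℕ) : dist (homSeq q x k) (homSeq q x (k + 1)) ≤ D / 2 / 2 ^ k := by
  unfold homSeq
  have h1 := hq (x ^ (2 ^ k)) (x ^ (2 ^ k))
  have h2 : x ^ (2 ^ k) * x ^ (2 ^ k) = x ^ (2 ^ (k + 1)) := by
    rw [← pow_add, pow_succ, mul_two]
  rw [h2] at h1
  set a := q (x ^ (2 ^ k)) with ha
  set b := q (x ^ (2 ^ (k + 1))) with hb
  have hpos : (0 : ℝ) < 2 ^ (k + 1) := by positivity
  have h3 : ((2 : ℝ) ^ k)⁻¹ • a - ((2 : ℝ) ^ (k + 1))⁻¹ • b
      = -(((2 : ℝ) ^ (k + 1))⁻¹ • (b - a - a)) := by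
    have : ((2 : ℝ) ^ k)⁻¹ = ((2 : ℝ) ^ (k + 1))⁻¹ * 2 := by
      rw [pow_succ]; field_simp
    rw [this, smul_sub, smul_sub, mul_smul, two_smul, smul_add]
    abel
  rw [dist_eq_norm, h3, norm_neg, norm_smul, Real.norm_eq_abs, abs_of_pos (inv_pos.2 hpos)]
  calc ((2 : ℝ) ^ (k + 1))⁻¹ * ‖b - a - a‖ ≤ ((2 : ℝ) ^ (k + 1))⁻¹ * D :=
        mul_le_mul_of_nonneg_left h1 (inv_pos.2 hpos).le
    _ = D / 2 / 2 ^ k := by rw [pow_succ]; field_simp

theorem exists_homog [CompleteSpace E] (q : N → E) (D : ℝ)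
    (hq : ∀ x y, ‖q (x * y) - q x - q y‖ ≤ D) (x : N) :
    ∃ a : E, Tendsto (homSeq q x) atTop (𝓝 a) :=
  cauchySeq_tendsto_of_complete (cauchySeq_of_le_geometric_two (homSeq_dist q D hq x))

end Homog

section Main

variable {N : Type u} [Group N] {E : Type v} [NormedAddCommGroup E] [NormedSpace ℝ E]

theorem qm_one (q : N → E) (D : ℝ) (hq : ∀ x y, ‖q (x * y) - q x - q y‖ ≤ D) : ‖q 1‖ ≤ D := by
  have := hq 1 1
  simpa using this

theorem qm_inv (q : N → E) (D : ℝ) (hq : ∀ x y, ‖q (x * y) - q x - q y‖ ≤ D) (x : N) :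
    ‖q x + q x⁻¹‖ ≤ 2 * D := by
  have h1 := hq x x⁻¹
  have h2 := qm_one q D hq
  rw [mul_inv_cancel] at h1
  have : q x + q x⁻¹ = q 1 - (q 1 - q x - q x⁻¹) := by abel
  rw [this]
  calc ‖q 1 - (q 1 - q x - q x⁻¹)‖ ≤ ‖q 1‖ + ‖q 1 - q x - q x⁻¹‖ := norm_sub_le _ _
    _ ≤ 2 * D := by linarith

theorem qm_commutator (q : N → E) (D : ℝ) (hq : ∀ x y, ‖q (x * y) - q x - q y‖ ≤ D) (x y : N) :
    ‖q (x * y * x⁻¹ * y⁻¹)‖ ≤ 7 * D := by
  have h1 := hq (x * y * x⁻¹) y⁻¹
  have h2 := hq (x * y) x⁻¹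
  have h3 := hq x y
  have h4 := qm_inv q D hq x
  have h5 := qm_inv q D hq y
  have : q (x * y * x⁻¹ * y⁻¹) = (q (x * y * x⁻¹ * y⁻¹) - q (x * y * x⁻¹) - q y⁻¹)
      + (q (x * y * x⁻¹) - q (x * y) - q x⁻¹) + (q (x * y) - q x - q y)
      + (q x + q x⁻¹) + (q y + q y⁻¹) := by abel
  rw [this]
  calc _ ≤ ‖q (x * y * x⁻¹ * y⁻¹) - q (x * y * x⁻¹) - q y⁻¹‖
      + ‖q (x * y * x⁻¹) - q (x * y) - q x⁻¹‖ + ‖q (x * y) - q x - q y‖
      + ‖q x + q x⁻¹‖ + ‖q y + q y⁻¹‖ := by
        refine (norm_add_le _ _).trans ?_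
        gcongr
        refine (norm_add_le _ _).trans ?_
        gcongr
        refine (norm_add_le _ _).trans ?_
        gcongr
        exact norm_add_le _ _
    _ ≤ 7 * D := by linarith

theorem pow_mul_mem_commutator (x y : N) (n : ℕ) :
    (x ^ n * y ^ n)⁻¹ * (x * y) ^ n ∈ _root_.commutator N := by
  rw [← QuotientGroup.eq]
  show (Abelianization.of (x ^ n * y ^ n)) = Abelianization.of ((x * y) ^ n)
  simp only [map_mul, map_pow, mul_pow]

/-- A group with a quasimorphism to a finite dimensional real normed space under which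
preimages of balls are finite is poly-(cyclic or finite). -/
theorem poly_of_proper_quasimorphism [FiniteDimensional ℝ E] (q : N → E) (D : ℝ)
    (hq : ∀ x y, ‖q (x * y) - q x - q y‖ ≤ D) (hproper : ∀ r : ℝ, {x : N | ‖q x‖ ≤ r}.Finite) :
    Poly True N := by
  classical
  have hcomplete : CompleteSpace E := FiniteDimensional.complete ℝ E
  -- finitely many commutators
  have hcs : Finite (commutatorSet N) := by
    refine Set.finite_coe_iff.2 ((hproper (7 * D)).subset ?_)
    rintro _ ⟨x, y, rfl⟩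
    exact qm_commutator q D hq x y
  have hcf : Finite (_root_.commutator N) := inferInstance
  -- bound of `q` on the commutator subgroup
  obtain ⟨M, hM⟩ : ∃ M : ℝ, ∀ c ∈ _root_.commutator N, ‖q c‖ ≤ M := by
    have hfin : ((_root_.commutator N : Set N)).Finite := Set.toFinite _
    obtain ⟨M, hM⟩ := (hfin.image (fun c => ‖q c‖)).bddAbove
    exact ⟨M, fun c hc => hM ⟨c, hc, rfl⟩⟩
  -- homogenisation
  choose qb hqb using exists_homog q D hq
  have hclose : ∀ x, ‖q x - qb x‖ ≤ D := by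
    intro x
    have := dist_le_of_le_geometric_two_of_tendsto₀ (homSeq_dist q D hq x) (hqb x)
    rw [dist_eq_norm] at this
    simpa [homSeq] using this
  have hadd : ∀ x y, qb (x * y) = qb x + qb y := by
    intro x y
    have h1 : Tendsto (fun k => homSeq q (x * y) k - homSeq q x k - homSeq q y k) atTop
        (𝓝 (qb (x * y) - qb x - qb y)) := ((hqb (x * y)).sub (hqb x)).sub (hqb y)
    have h2 : Tendsto (fun k => homSeq q (x * y) k - homSeq q x k - homSeq q y k) atTop
        (𝓝 0) := by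
      refine squeeze_zero_norm (a := fun k : ℕ => (2 * D + M) * ((2 : ℝ) ^ k)⁻¹) ?_ ?_
      · intro k
        set n := 2 ^ k with hn
        have hc := pow_mul_mem_commutator x y n
        set c := (x ^ n * y ^ n)⁻¹ * (x * y) ^ n with hcdef
        have hxy : (x * y) ^ n = x ^ n * y ^ n * c := by
          rw [hcdef]; group
        have e1 := hq (x ^ n * y ^ n) c
        have e2 := hq (x ^ n) (y ^ n)
        have e3 := hM c hc
        rw [← hxy] at e1
        have hpos : (0 : ℝ) < ((2 : ℝ) ^ k)⁻¹ := by positivity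
        have : homSeq q (x * y) k - homSeq q x k - homSeq q y k
            = ((2 : ℝ) ^ k)⁻¹ • (q ((x * y) ^ n) - q (x ^ n) - q (y ^ n)) := by
          simp only [homSeq, smul_sub, hn]
        rw [this, norm_smul, Real.norm_eq_abs, abs_of_pos hpos, mul_comm]
        refine mul_le_mul_of_nonneg_right ?_ hpos.le
        have : q ((x * y) ^ n) - q (x ^ n) - q (y ^ n)
            = (q ((x * y) ^ n) - q (x ^ n * y ^ n) - q c)
              + (q (x ^ n * y ^ n) - q (x ^ n) - q (y ^ n)) + q c := by abel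
        rw [this]
        calc _ ≤ ‖q ((x * y) ^ n) - q (x ^ n * y ^ n) - q c‖
              + ‖q (x ^ n * y ^ n) - q (x ^ n) - q (y ^ n)‖ + ‖q c‖ := norm_add₃_le
          _ ≤ 2 * D + M := by linarith
      · have : Tendsto (fun k : ℕ => ((2 : ℝ) ^ k)⁻¹) atTop (𝓝 0) := by
          have := tendsto_pow_atTop_nhds_zero_of_lt_one (r := (2 : ℝ)⁻¹) (by positivity)
            (by norm_num)
          simpa [inv_pow] using this
        simpa using this.const_mul (2 * D + M)
    have h3 := tendsto_nhds_unique h1 h2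
    have : qb (x * y) = (qb (x * y) - qb x - qb y) + (qb x + qb y) := by abel
    rw [this, h3, zero_add]
  -- the homomorphism
  let φ : N →* Multiplicative E := MonoidHom.mk' (fun x => Multiplicative.ofAdd (qb x)) (by
    intro x y
    rw [hadd, ofAdd_add])
  have hφ : ∀ x, φ x = Multiplicative.ofAdd (qb x) := fun _ => rfl
  -- finite kernel
  have hker : Finite φ.ker := by
    refine Set.finite_coe_iff.2 ((hproper D).subset ?_)
    intro x hx
    have hx' : φ x = 1 := hx
    rw [hφ] at hx'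
    have h0 : qb x = 0 := by simpa using hx'
    have := hclose x
    rw [h0, sub_zero] at this
    exact this
  -- the image is a discrete subgroup
  let L : AddSubgroup E :=
    { carrier := Set.range qb
      add_mem' := by
        rintro _ _ ⟨x, rfl⟩ ⟨y, rfl⟩
        exact ⟨x * y, hadd x y⟩
      zero_mem' := ⟨1, by
        have := hadd 1 1
        rw [mul_one] at this
        simpa using this⟩
      neg_mem' := by
        rintro _ ⟨x, rfl⟩
        refine ⟨x⁻¹, ?_⟩
        have h1 := hadd x x⁻¹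
        have h0 : qb 1 = 0 := by
          have := hadd 1 1
          rw [mul_one] at this
          simpa using this
        rw [mul_inv_cancel, h0] at h1
        exact (neg_eq_of_add_eq_zero_right h1.symm).symm }
  let L' : Submodule ℤ E := AddSubgroup.toIntSubmodule L
  have hLmem : ∀ v, v ∈ L' ↔ ∃ x, qb x = v := fun v => Iff.rfl
  have hball : ((L' : Set E) ∩ Metric.closedBall 0 1).Finite := by
    refine ((hproper (1 + D)).image qb).subset ?_
    rintro v ⟨⟨x, rfl⟩, hv⟩
    refine ⟨x, ?_, rfl⟩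
    rw [mem_closedBall_zero_iff] at hv
    have := hclose x
    show ‖q x‖ ≤ 1 + D
    calc ‖q x‖ = ‖(q x - qb x) + qb x‖ := by rw [sub_add_cancel]
      _ ≤ ‖q x - qb x‖ + ‖qb x‖ := norm_add_le _ _
      _ ≤ 1 + D := by linarith
  have hdisc : DiscreteTopology L' := by
    refine discreteTopology_of_isOpen_singleton_zero ?_
    refine isOpen_singleton_of_finite_mem_nhds 0 (s := Metric.closedBall 0 1) ?_ ?_
    · exact Metric.closedBall_mem_nhds _ (by simp)
    · refine Set.Finite.of_finite_image ?_ (Set.injOn_of_injective Subtype.val_injective)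
      refine hball.subset ?_
      rintro _ ⟨x, hx, rfl⟩
      exact ⟨Subtype.mem x, hx⟩
  have hfin : Module.Finite ℤ L' := inferInstance
  have hLfg : L.FG := by
    have h1 : L'.FG := Module.Finite.iff_fg.1 hfin
    rw [Submodule.fg_iff_addSubgroup_fg] at h1
    exact h1
  have hrange : φ.range = AddSubgroup.toSubgroup L := by
    ext v
    constructor
    · rintro ⟨x, rfl⟩
      exact ⟨x, rfl⟩
    · rintro ⟨x, hx⟩
      exact ⟨x, by rw [hφ, hx]; rfl⟩
  have hrfg : Group.FG φ.range := by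
    rw [Group.fg_iff_subgroup_fg, hrange, ← AddSubgroup.fg_iff_mul_fg]
    exact hLfg
  have hpr : Poly True φ.range := Poly.of_comm_fg True φ.range
  refine Poly.ext φ.rangeRestrict hpr ?_
  rw [MonoidHom.ker_rangeRestrict]
  exact Poly.of_finite

end Main

end Vale.Agent.Lib.P188
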