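import Mathlib
import Vale.Agent.Lib.P188.Homog

/-!
# Finite-to-one quasi-homomorphisms to finitely generated abelian groups
-/

namespace Vale.Agent.Lib.P188

open Subgroup

universe u v

theorem poly_of_quasihom_comm {N : Type u} [Group N] {A : Type v} [CommGroup A] [Group.FG A]
    (a : N → A) (Da : Set A) (hDa : Da.Finite) (ha : ∀ x y, (a x * a y)⁻¹ * a (x * y) ∈ Da)
    (hfib : ∀ c, {x : N | a x = c}.Finite) : Poly True N := by
  classical
  obtain ⟨ι, j, _, _, p, hp, e, ⟨eq⟩⟩ := CommGroup.equiv_free_prod_prod_multiplicative_zmod A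
  have hne : ∀ i, NeZero (p i ^ e i) := fun i => ⟨pow_ne_zero _ (hp i).ne_zero⟩
  have hFfin : Finite ((i : ι) → Multiplicative (ZMod (p i ^ e i))) := by
    have : ∀ i, Finite (Multiplicative (ZMod (p i ^ e i))) := by
      intro i
      have : Finite (ZMod (p i ^ e i)) := inferInstance
      exact this
    infer_instance
  -- the linear coordinates
  let lam : A → (j → ℝ) := fun c i => ((Multiplicative.toAdd ((eq c).1 i) : ℤ) : ℝ)
  have hlam_mul : ∀ c d, lam (c * d) = lam c + lam d := by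
    intro c d
    funext i
    simp [lam]
  have hlam_inv : ∀ c, lam c⁻¹ = - lam c := by
    intro c
    funext i
    simp [lam]
  let q : N → (j → ℝ) := fun x => lam (a x)
  obtain ⟨D, hD⟩ : ∃ D : ℝ, ∀ c ∈ Da, ‖lam c‖ ≤ D := by
    obtain ⟨D, hD⟩ := (hDa.image (fun c => ‖lam c‖)).bddAbove
    exact ⟨D, fun c hc => hD ⟨c, hc, rfl⟩⟩
  refine poly_of_proper_quasimorphism q D ?_ ?_
  · intro x y
    have h1 := hD _ (ha x y)
    have h2 : lam ((a x * a y)⁻¹ * a (x * y)) = q (x * y) - q x - q y := by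
      rw [hlam_mul, hlam_inv, hlam_mul]
      simp only [q]
      abel
    rwa [h2] at h1
  · intro r
    -- bounded integer vectors
    have hbox : {v : j → Multiplicative ℤ | ∀ i, Multiplicative.toAdd (v i) ∈
        Set.Icc (-⌈r⌉) ⌈r⌉}.Finite := by
      have : {v : j → Multiplicative ℤ | ∀ i, Multiplicative.toAdd (v i) ∈
          Set.Icc (-⌈r⌉) ⌈r⌉} = Set.pi Set.univ
            (fun _ : j => {w : Multiplicative ℤ | Multiplicative.toAdd w ∈ Set.Icc (-⌈r⌉) ⌈r⌉}) := by
        ext v; simp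
      rw [this]
      refine Set.Finite.pi (fun _ => ?_)
      exact (Set.finite_Icc (-⌈r⌉) ⌈r⌉).preimage (Multiplicative.toAdd.injective.injOn)
    have hbox2 : {c : A | ∀ i, Multiplicative.toAdd ((eq c).1 i) ∈ Set.Icc (-⌈r⌉) ⌈r⌉}.Finite := by
      have h1 : ({v : j → Multiplicative ℤ | ∀ i, Multiplicative.toAdd (v i) ∈
        Set.Icc (-⌈r⌉) ⌈r⌉} ×ˢ (Set.univ : Set ((i : ι) → Multiplicative (ZMod (p i ^ e i))))).Finite :=
        hbox.prod Set.finite_univ
      refine (h1.preimage (eq.injective.injOn)).subset ?_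
      intro c hc
      exact ⟨hc, trivial⟩
    have hunion : (⋃ c ∈ {c : A | ∀ i, Multiplicative.toAdd ((eq c).1 i) ∈ Set.Icc (-⌈r⌉) ⌈r⌉},
        {x : N | a x = c}).Finite := hbox2.biUnion (fun c _ => hfib c)
    refine hunion.subset ?_
    intro x hx
    simp only [Set.mem_iUnion]
    refine ⟨a x, ?_, rfl⟩
    intro i
    have hx' : ‖q x‖ ≤ r := hx
    have h1 : ‖q x i‖ ≤ r := (norm_le_pi_norm (q x) i).trans hx'
    have h2 : |((Multiplicative.toAdd ((eq (a x)).1 i) : ℤ) : ℝ)| ≤ r := h1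
    rw [abs_le] at h2
    constructor
    · have : (-(⌈r⌉ : ℤ) : ℝ) ≤ ((Multiplicative.toAdd ((eq (a x)).1 i) : ℤ) : ℝ) := by
        have := Int.le_ceil r
        linarith [h2.1]
      exact_mod_cast this
    · have : ((Multiplicative.toAdd ((eq (a x)).1 i) : ℤ) : ℝ) ≤ (⌈r⌉ : ℝ) :=
        h2.2.trans (Int.le_ceil r)
      exact_mod_cast this

end Vale.Agent.Lib.P188
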