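import Mathlib
import Vale.Agent.Lib.P188.QuasiComm

/-!
# Finite-to-one quasi-homomorphisms into poly-(cyclic or finite) groups
-/

namespace Vale.Agent.Lib.P188

open Subgroup

open scoped IsMulCommutative

universe u v

section

variable {H : Type u} {G : Type v} [Group H] [Group G]

/-- the defect of a map between groups -/
def defect (f : H → G) (x y : H) : G := (f x * f y)⁻¹ * f (x * y)

theorem map_mul_defect (f : H → G) (x y : H) : f (x * y) = f x * f y * defect f x y := by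
  simp only [defect]
  group

theorem defect_conj (f : H → G) (x y z : H) :
    (f z)⁻¹ * defect f x y * f z
      = defect f y z * defect f x (y * z) * (defect f (x * y) z)⁻¹ := by
  simp only [defect, mul_assoc x y z]
  group

theorem poly_of_quasihom (hG : Poly True G) (f : H → G) (D : Set G) (hD : D.Finite)
    (hf : ∀ x y, (f x * f y)⁻¹ * f (x * y) ∈ D) (hfib : ∀ g, {x : H | f x = g}.Finite) :
    Poly True H := by
  classical
  -- the defect set
  set D₀ : Set G := Set.range (fun p : H × H => defect f p.1 p.2) with hD₀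
  have hD₀fin : D₀.Finite := hD.subset (by rintro _ ⟨p, rfl⟩; exact hf p.1 p.2)
  have hmemD₀ : ∀ x y, defect f x y ∈ D₀ := fun x y => ⟨(x, y), rfl⟩
  set Δ : Subgroup G := Subgroup.closure D₀ with hΔ
  have hD₀Δ : ∀ d ∈ D₀, d ∈ Δ := fun d hd => Subgroup.subset_closure hd
  set E : Set G := (fun t : G × G × G => t.1 * t.2.1 * t.2.2⁻¹) '' (D₀ ×ˢ D₀ ×ˢ D₀) with hE
  have hEfin : E.Finite := (hD₀fin.prod (hD₀fin.prod hD₀fin)).image _
  have hconjE : ∀ z, ∀ d ∈ D₀, (f z)⁻¹ * d * f z ∈ E := by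
    rintro z _ ⟨⟨x, y⟩, rfl⟩
    refine ⟨(defect f y z, defect f x (y * z), defect f (x * y) z),
      ⟨hmemD₀ _ _, hmemD₀ _ _, hmemD₀ _ _⟩, ?_⟩
    exact (defect_conj f x y z).symm
  have hEΔ : ∀ d ∈ E, d ∈ Δ := by
    rintro _ ⟨⟨a, b, c⟩, ⟨ha, hb, hc⟩, rfl⟩
    exact Δ.mul_mem (Δ.mul_mem (hD₀Δ a ha) (hD₀Δ b hb)) (Δ.inv_mem (hD₀Δ c hc))
  -- conjugation by `(f z)⁻¹` preserves `Δ`
  have hC1 : ∀ z, ∀ d ∈ Δ, (f z)⁻¹ * d * f z ∈ Δ := by
    intro z d hd
    have : Δ ≤ Δ.comap (MulAut.conj (f z)⁻¹).toMonoidHom := by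
      rw [hΔ, Subgroup.closure_le]
      intro d hd
      show (MulAut.conj (f z)⁻¹) d ∈ Subgroup.closure D₀
      rw [MulAut.conj_apply, inv_inv]
      exact hEΔ _ (hconjE z d hd)
    have h2 := this hd
    simpa [MulAut.conj_apply] using h2
  have hf1 : (f 1)⁻¹ ∈ Δ := by
    have := hD₀Δ _ (hmemD₀ 1 1)
    simpa [defect] using this
  have hinv : ∀ z, (f z)⁻¹ = f z⁻¹ * (defect f z z⁻¹ * (f 1)⁻¹) := by
    intro z
    simp [defect]
  have hC2 : ∀ z, ∀ d ∈ Δ, f z * d * (f z)⁻¹ ∈ Δ := by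
    intro z d hd
    set w := defect f z z⁻¹ * (f 1)⁻¹ with hw
    have hwΔ : w ∈ Δ := Δ.mul_mem (hD₀Δ _ (hmemD₀ _ _)) hf1
    have h1 : f z = w⁻¹ * (f z⁻¹)⁻¹ := by
      have := hinv z
      rw [← hw] at this
      have h2 : f z = ((f z)⁻¹)⁻¹ := (inv_inv _).symm
      rw [h2, this, mul_inv_rev]
    have h3 : f z * d * (f z)⁻¹ = w⁻¹ * ((f z⁻¹)⁻¹ * d * f z⁻¹) * w := by
      rw [h1]; group
    rw [h3]
    exact Δ.mul_mem (Δ.mul_mem (Δ.inv_mem hwΔ) (hC1 _ d hd)) hwΔ
  have hnorm : ∀ z, f z ∈ Subgroup.normalizer (Δ : Set G) := by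
    intro z
    rw [Subgroup.mem_normalizer_iff]
    intro d
    constructor
    · exact hC2 z d
    · intro hd
      have := hC1 z _ hd
      simpa [mul_assoc] using this
  -- the homomorphism to the normaliser modulo `Δ`
  set M : Subgroup G := Subgroup.normalizer (Δ : Set G) with hM
  let φ : H →* M ⧸ Δ.subgroupOf M :=
    MonoidHom.mk' (fun x => QuotientGroup.mk (⟨f x, hnorm x⟩ : M)) (by
      intro x y
      rw [← QuotientGroup.mk_mul, eq_comm, QuotientGroup.eq, Subgroup.mem_subgroupOf]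
      exact hD₀Δ _ (hmemD₀ x y))
  have hφker : ∀ x, x ∈ φ.ker ↔ f x ∈ Δ := by
    intro x
    rw [MonoidHom.mem_ker]
    show (QuotientGroup.mk (⟨f x, hnorm x⟩ : M) : M ⧸ Δ.subgroupOf M) = 1 ↔ _
    rw [QuotientGroup.eq_one_iff, Subgroup.mem_subgroupOf]
  refine Poly.ext φ (Poly.quotient _ (Poly.subgroup M hG)) ?_
  -- it remains to treat the kernel
  set N := φ.ker with hN
  have hfN : ∀ z : N, f z ∈ Δ := fun z => (hφker z).1 z.2
  have hD₀t : Finite D₀ := hD₀fin.to_subtype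
  have hEt : Finite E := hEfin.to_subtype
  let pat : N → (D₀ → E) := fun z d => ⟨(f z)⁻¹ * d * f z, hconjE z d d.2⟩
  let rep : N → N := fun z => Set.rangeSplitting pat ⟨pat z, Set.mem_range_self z⟩
  have hrep : ∀ z, pat (rep z) = pat z := fun z => Set.apply_rangeSplitting pat _
  have hrepfin : (Set.range rep).Finite := by
    have : Set.range rep ⊆ Set.range (Set.rangeSplitting pat) := by
      rintro _ ⟨z, rfl⟩
      exact ⟨_, rfl⟩
    exact (Set.finite_range _).subset this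
  let t : N → G := fun z => f (rep z)
  have htΔ : ∀ z, t z ∈ Δ := fun z => hfN (rep z)
  set T : Set G := Set.range t with hT
  have hTfin : T.Finite := by
    have : T = (fun z : N => f z) '' Set.range rep := by
      rw [hT]
      ext g
      constructor
      · rintro ⟨z, rfl⟩
        exact ⟨rep z, ⟨z, rfl⟩, rfl⟩
      · rintro ⟨_, ⟨z, rfl⟩, rfl⟩
        exact ⟨z, rfl⟩
    rw [this]
    exact hrepfin.image _
  -- `f z * (t z)⁻¹` commutes with `Δ`
  have hcomm0 : ∀ z : N, ∀ d ∈ D₀, (f z * (t z)⁻¹) * d = d * (f z * (t z)⁻¹) := by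
    intro z d hd
    have h1 := congrFun (hrep z) ⟨d, hd⟩
    have h2 : (t z)⁻¹ * d * t z = (f z)⁻¹ * d * f z := congrArg Subtype.val h1
    have h3 : d = t z * ((f z)⁻¹ * d * f z) * (t z)⁻¹ := by
      rw [← h2]; group
    calc (f z * (t z)⁻¹) * d = (f z * (t z)⁻¹) * (t z * ((f z)⁻¹ * d * f z) * (t z)⁻¹) := by
          rw [← h3]
      _ = d * (f z * (t z)⁻¹) := by group
  have hcomm : ∀ z : N, ∀ d ∈ Δ, (f z * (t z)⁻¹) * d = d * (f z * (t z)⁻¹) := by
    intro z d hd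
    have : Δ ≤ Subgroup.centralizer {f z * (t z)⁻¹} := by
      rw [hΔ, Subgroup.closure_le]
      intro d hd
      rw [SetLike.mem_coe, Subgroup.mem_centralizer_iff]
      intro h hh
      rw [Set.mem_singleton_iff] at hh
      subst hh
      exact hcomm0 z d hd
    have h2 := this hd
    rw [Subgroup.mem_centralizer_iff] at h2
    exact h2 _ rfl
  have haΔ : ∀ z : N, f z * (t z)⁻¹ ∈ Δ := fun z => Δ.mul_mem (hfN z) (Δ.inv_mem (htΔ z))
  let a : N → Subgroup.center Δ := fun z => ⟨⟨f z * (t z)⁻¹, haΔ z⟩, by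
    rw [Subgroup.mem_center_iff]
    intro g
    ext
    exact (hcomm z g g.2).symm⟩
  have hacoe : ∀ z, ((a z : Δ) : G) = f z * (t z)⁻¹ := fun _ => rfl
  have hfg : Group.FG (Subgroup.center Δ) :=
    ((hG.subgroup Δ).subgroup (Subgroup.center Δ)).fg
  -- the defect set of `a`
  set W : Set G := (fun s : G × G × G × G => s.1 * s.2.1 * s.2.2.1 * s.2.2.2⁻¹) ''
    (T ×ˢ T ×ˢ D₀ ×ˢ T) with hW
  have hWfin : W.Finite := (hTfin.prod (hTfin.prod (hD₀fin.prod hTfin))).image _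
  have hinj : Function.Injective (fun c : Subgroup.center Δ => ((c : Δ) : G)) :=
    fun c d h => Subtype.ext (Subtype.ext h)
  refine poly_of_quasihom_comm a ((fun c : Subgroup.center Δ => ((c : Δ) : G)) ⁻¹' W)
    (hWfin.preimage hinj.injOn) ?_ ?_
  · intro x y
    show (((a x * a y)⁻¹ * a (x * y) : Subgroup.center Δ) : G) ∈ W
    refine ⟨(t x, t y, defect f x y, t (x * y)), ⟨⟨x, rfl⟩, ⟨y, rfl⟩, hmemD₀ _ _, ⟨x * y, rfl⟩⟩, ?_⟩
    have h1 : (((a x * a y)⁻¹ * a (x * y) : Subgroup.center Δ) : G)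
        = (f x * (t x)⁻¹ * (f y * (t y)⁻¹))⁻¹ * (f (x * y) * (t (x * y))⁻¹) := by
      simp only [Subgroup.coe_mul, Subgroup.coe_inv, hacoe]
    rw [h1]
    have h2 : f ((x : H) * (y : H)) = f x * f y * defect f x y := map_mul_defect f x y
    have h3 := hcomm y (t x) (htΔ x)
    show t x * t y * defect f x y * (t (x * y))⁻¹ = _
    rw [h2]
    -- `f y = (f y (t y)⁻¹) t y`
    set ay := f y * (t y)⁻¹ with hay
    have h5 : f y = ay * t y := by rw [hay]; group
    rw [h5]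
    have h6 : (f x * (t x)⁻¹ * ay)⁻¹ * (f x * (ay * t y) * defect f x y * (t (x * y))⁻¹)
        = ay⁻¹ * (t x * ay) * t y * defect f x y * (t (x * y))⁻¹ := by group
    rw [h6, ← h3]
    group
  · intro c
    have h1 : (⋃ g ∈ (fun s => ((c : Δ) : G) * s) '' T, {x : H | f x = g}).Finite :=
      (hTfin.image _).biUnion (fun g _ => hfib g)
    refine Set.Finite.of_finite_image (f := fun z : N => (z : H)) (h1.subset ?_)
      Subtype.val_injective.injOn
    rintro _ ⟨z, hz, rfl⟩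
    simp only [Set.mem_iUnion]
    refine ⟨f z, ⟨t z, ⟨z, rfl⟩, ?_⟩, rfl⟩
    have hz' : a z = c := hz
    show ((c : Δ) : G) * t z = f z
    rw [← hz', hacoe]
    group

end

end Vale.Agent.Lib.P188
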