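import Mathlib

/-!
# P188: definitions (polycyclic groups, word metrics, quasi-isometries)
-/

namespace Vale.Agent.Lib.P188

/-- `G` is polycyclic: there is a subnormal series `1 = S 0 ⊴ S 1 ⊴ ⋯ ⊴ S m = G`
with every quotient `S (i+1) / S i` cyclic. -/
def IsPolycyclic (G : Type*) [Group G] : Prop :=
  ∃ (m : ℕ) (S : ℕ → Subgroup G), S 0 = ⊥ ∧ S m = ⊤ ∧
    ∀ i < m, S i ≤ S (i + 1) ∧ ∃ _ : ((S i).subgroupOf (S (i + 1))).Normal,
      IsCyclic (S (i + 1) ⧸ (S i).subgroupOf (S (i + 1)))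

/-- `G` is virtually polycyclic: some finite-index subgroup is polycyclic. -/
def IsVirtuallyPolycyclic (G : Type*) [Group G] : Prop :=
  ∃ K : Subgroup G, K.FiniteIndex ∧ IsPolycyclic K

/-- Word length of `g` with respect to `S`: the least length of a word in `S ∪ S⁻¹`
representing `g`. -/
noncomputable def wordLength {G : Type*} [Group G] (S : Set G) (g : G) : ℕ :=
  sInf {n : ℕ | ∃ l : List G, l.length = n ∧ (∀ s ∈ l, s ∈ S ∨ s⁻¹ ∈ S) ∧ l.prod = g}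

/-- The (left-invariant) word metric `d_S(x,y) = |x⁻¹ y|_S`. -/
noncomputable def wordDist {G : Type*} [Group G] (S : Set G) (x y : G) : ℝ :=
  (wordLength S (x⁻¹ * y) : ℝ)

/-- `F` is a `(K,C)`-quasi-isometry from `(X,dX)` to `(Y,dY)`. -/
def IsQuasiIsometry {X Y : Type*} (dX : X → X → ℝ) (dY : Y → Y → ℝ) (K C : ℝ) (F : X → Y) :
    Prop :=
  1 ≤ K ∧ 0 ≤ C ∧
    (∀ x x', K⁻¹ * dX x x' - C ≤ dY (F x) (F x') ∧ dY (F x) (F x') ≤ K * dX x x' + C) ∧
    ∀ y, ∃ x, dY y (F x) ≤ C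

end Vale.Agent.Lib.P188
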