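import Mathlib
import Vale.Agent.Lib.P188.Defs
import Vale.Agent.Lib.P188.Basic

/-!
# Virtually polycyclic = poly-(cyclic or finite)
-/

namespace Vale.Agent.Lib.P188

open Subgroup

universe u v

variable {G : Type u} [Group G]

theorem step_false_iff {A B : Subgroup G} : Step False A B ↔
    (A ≤ B ∧ ∃ _ : (A.subgroupOf B).Normal, IsCyclic (B ⧸ A.subgroupOf B)) := by
  constructor
  · rintro ⟨h1, h2, h3⟩
    refine ⟨h1, h2, ?_⟩
    rcases h3 with h3 | ⟨h, _⟩
    · exact h3
    · exact h.elim
  · rintro ⟨h1, h2, h3⟩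
    exact ⟨h1, h2, Or.inl h3⟩

theorem chain_iff_series {A B : Subgroup G} : Chain False A B ↔
    ∃ (m : ℕ) (S : ℕ → Subgroup G), S 0 = A ∧ S m = B ∧ ∀ i < m, Step False (S i) (S (i + 1)) := by
  constructor
  · intro h
    induction h with
    | refl => exact ⟨0, fun _ => A, rfl, rfl, fun i hi => absurd hi (Nat.not_lt_zero i)⟩
    | @tail B C _ hs ih =>
      obtain ⟨m, S, h0, hm, hstep⟩ := ih
      refine ⟨m + 1, fun i => if i ≤ m then S i else C, ?_, ?_, ?_⟩
      · simp [h0]
      · simp
      · intro i hi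
        rcases Nat.lt_succ_iff_lt_or_eq.1 hi with hlt | heq
        · have h1 : i ≤ m := hlt.le
          have h2 : i + 1 ≤ m := hlt
          simp only [h1, h2, if_true]
          exact hstep i hlt
        · subst heq
          simp only [le_refl, if_true, Nat.add_one_le_iff, lt_irrefl, if_false]
          rw [hm]
          exact hs
  · rintro ⟨m, S, h0, hm, hstep⟩
    have key : ∀ i, i ≤ m → Chain False A (S i) := by
      intro i
      induction i with
      | zero => intro _; rw [h0]; exact Relation.ReflTransGen.refl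
      | succ i ih =>
        intro hi
        exact (ih (Nat.le_of_succ_le hi)).tail (hstep i hi)
    rw [← hm]
    exact key m le_rfl

theorem isPolycyclic_iff : IsPolycyclic G ↔ Poly False G := by
  unfold IsPolycyclic Poly
  rw [chain_iff_series]
  simp only [step_false_iff]

theorem Chain.of_le {P : Prop} {A B : Subgroup G} (hB : Chain P ⊥ B) (hle : A ≤ B) :
    Chain P ⊥ A :=
  Poly.chain_bot A (Poly.of_injective (Subgroup.inclusion hle) (Subgroup.inclusion_injective hle)
    (Chain.poly hB))

/-- the key step: going up one cyclic-or-finite step preserves `polycyclic-by-finite` -/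
theorem virt_step {A B : Subgroup G} (hA : Chain True ⊥ A) (hs : Step True A B)
    (hP : ∃ P : Subgroup G, P ≤ A ∧ Chain False ⊥ P ∧ P.relIndex A ≠ 0) :
    ∃ P : Subgroup G, P ≤ B ∧ Chain False ⊥ P ∧ P.relIndex B ≠ 0 := by
  obtain ⟨P, hPA, hPc, hPi⟩ := hP
  obtain ⟨hle, hn, hc⟩ := hs
  have hnorm := (normal_subgroupOf_iff hle).1 hn
  -- the exponent
  haveI : (P.subgroupOf A).FiniteIndex := ⟨hPi⟩
  set m := ((P.subgroupOf A).normalCore).index with hm
  have hm0 : m ≠ 0 := Subgroup.FiniteIndex.index_ne_zero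
  have hpow : ∀ a ∈ A, a ^ m ∈ P := by
    intro a ha
    have h1 : (⟨a, ha⟩ : A) ^ m ∈ (P.subgroupOf A).normalCore := Subgroup.pow_index_mem _ _
    have h2 := Subgroup.normalCore_le _ h1
    simpa [Subgroup.mem_subgroupOf] using h2
  -- the power subgroup
  set P₀ := Subgroup.closure {x : G | ∃ a ∈ A, a ^ m = x} with hP₀
  have hP₀P : P₀ ≤ P := by
    rw [hP₀, Subgroup.closure_le]
    rintro _ ⟨a, ha, rfl⟩
    exact hpow a ha
  have hP₀A : P₀ ≤ A := hP₀P.trans hPA
  have hconj : ∀ b ∈ B, ∀ x ∈ P₀, b * x * b⁻¹ ∈ P₀ := by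
    intro b hb x hx
    have : P₀ ≤ P₀.comap (MulAut.conj b).toMonoidHom := by
      rw [hP₀, Subgroup.closure_le]
      rintro _ ⟨a, ha, rfl⟩
      show (MulAut.conj b) (a ^ m) ∈ Subgroup.closure {x : G | ∃ a ∈ A, a ^ m = x}
      refine Subgroup.subset_closure ⟨b * a * b⁻¹, hnorm a b ha hb, ?_⟩
      simp [MulAut.conj_apply, conj_pow]
    have h2 := this hx
    simpa [MulAut.conj_apply] using h2
  have hP₀c : Chain False ⊥ P₀ := hPc.of_le hP₀P
  -- finite index of `P₀` in `A`
  have hn₀ : (P₀.subgroupOf A).Normal := by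
    rw [normal_subgroupOf_iff hP₀A]
    intro h k hh hk
    exact hconj k (hle hk) h hh
  have hfin : Finite (A ⧸ P₀.subgroupOf A) := by
    refine Poly.finite_of_torsion (P := True) (Poly.quotient _ (Chain.poly hA)) ?_
    intro q
    induction q using QuotientGroup.induction_on with
    | H x =>
      rw [isOfFinOrder_iff_pow_eq_one]
      refine ⟨m, Nat.pos_of_ne_zero hm0, ?_⟩
      rw [← QuotientGroup.mk_pow, QuotientGroup.eq_one_iff, Subgroup.mem_subgroupOf]
      exact Subgroup.subset_closure ⟨x.1, x.2, by simp⟩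
  have hP₀i : P₀.relIndex A ≠ 0 := by
    have : (P₀.subgroupOf A).FiniteIndex := Subgroup.finiteIndex_of_finite_quotient
    exact this.index_ne_zero
  rcases hc with hc | ⟨_, hf⟩
  · -- cyclic step
    obtain ⟨q, hq⟩ := IsCyclic.exists_generator (α := B ⧸ A.subgroupOf B)
    induction q using QuotientGroup.induction_on with
    | H t =>
      have htn : (t : G) ∈ Subgroup.normalizer (P₀ : Set G) := by
        rw [Subgroup.mem_normalizer_iff]
        intro x
        constructor
        · intro hx
          exact hconj t t.2 x hx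
        · intro hx
          have := hconj (t : G)⁻¹ (B.inv_mem t.2) _ hx
          simpa [mul_assoc] using this
      refine ⟨P₀ ⊔ Subgroup.zpowers (t : G), ?_, hP₀c.tail (step_sup_zpowers False P₀ t htn), ?_⟩
      · refine sup_le (hP₀A.trans hle) ?_
        rw [Subgroup.zpowers_le]
        exact t.2
      · set P' := P₀ ⊔ Subgroup.zpowers (t : G) with hP'
        -- a surjection from the finite set `A / P₀`
        let φ : (A ⧸ P₀.subgroupOf A) → (B ⧸ P'.subgroupOf B) :=
          Quotient.map' (fun a : A => (⟨a.1, hle a.2⟩ : B)) (by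
            intro a b hab
            rw [QuotientGroup.leftRel_apply] at hab ⊢
            rw [Subgroup.mem_subgroupOf] at hab ⊢
            exact (le_sup_left : P₀ ≤ P') hab)
        have hφ : Function.Surjective φ := by
          intro q
          induction q using QuotientGroup.induction_on with
          | H b =>
            obtain ⟨k, hk⟩ := Subgroup.mem_zpowers_iff.1 (hq (QuotientGroup.mk b))
            rw [← QuotientGroup.mk_zpow, QuotientGroup.eq, Subgroup.mem_subgroupOf] at hk
            -- `(t^k)⁻¹ * b ∈ A`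
            have hk' : ((t : G) ^ k)⁻¹ * (b : G) ∈ A := by simpa using hk
            have ha : (t : G) ^ k * (((t : G) ^ k)⁻¹ * (b : G)) * ((t : G) ^ k)⁻¹ ∈ A :=
              hnorm _ _ hk' (B.zpow_mem t.2 k)
            refine ⟨QuotientGroup.mk ⟨_, ha⟩, ?_⟩
            show (QuotientGroup.mk _ : B ⧸ P'.subgroupOf B) = QuotientGroup.mk b
            rw [QuotientGroup.eq, Subgroup.mem_subgroupOf]
            have : (t : G) ^ k ∈ P' :=
              (le_sup_right : Subgroup.zpowers (t : G) ≤ P') (Subgroup.zpow_mem_zpowers _ k)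
            simpa [mul_assoc] using this
        have hfin' : Finite (B ⧸ P'.subgroupOf B) := Finite.of_surjective φ hφ
        have : (P'.subgroupOf B).FiniteIndex := Subgroup.finiteIndex_of_finite_quotient
        exact this.index_ne_zero
  · -- finite step
    refine ⟨P₀, hP₀A.trans hle, hP₀c, ?_⟩
    rw [← Subgroup.relIndex_mul_relIndex P₀ A B hP₀A hle]
    have : (A.subgroupOf B).FiniteIndex := Subgroup.finiteIndex_of_finite_quotient
    exact mul_ne_zero hP₀i this.index_ne_zero

theorem Chain.virt {B : Subgroup G} (hB : Chain True ⊥ B) :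
    ∃ P : Subgroup G, P ≤ B ∧ Chain False ⊥ P ∧ P.relIndex B ≠ 0 := by
  induction hB with
  | refl => exact ⟨⊥, le_rfl, Relation.ReflTransGen.refl, by simp⟩
  | tail h1 hs ih => exact virt_step h1 hs ih

theorem isVirtuallyPolycyclic_iff : IsVirtuallyPolycyclic G ↔ Poly True G := by
  constructor
  · rintro ⟨K, hK, hKp⟩
    rw [isPolycyclic_iff] at hKp
    have hN : Poly True K.normalCore :=
      (Poly.of_injective (Subgroup.inclusion K.normalCore_le)
        (Subgroup.inclusion_injective _) hKp).mono False.elim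
    refine Poly.ext (QuotientGroup.mk' K.normalCore) Poly.of_finite ?_
    rw [QuotientGroup.ker_mk']
    exact hN
  · intro h
    obtain ⟨P, _, hPc, hPi⟩ := Chain.virt h
    refine ⟨P, ⟨?_⟩, ?_⟩
    · rwa [Subgroup.relIndex_top_right] at hPi
    · rw [isPolycyclic_iff]
      exact Chain.poly hPc

end Vale.Agent.Lib.P188
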