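import Mathlib
import Vale.Agent.Lib.P188.Defs

/-!
# Basic facts on word lengths and word metrics
-/

namespace Vale.Agent.Lib.P188

open Subgroup

universe u

variable {G : Type u} [Group G] {S : Set G}

theorem exists_word (hS : Subgroup.closure S = ⊤) (g : G) :
    ∃ l : List G, (∀ s ∈ l, s ∈ S ∨ s⁻¹ ∈ S) ∧ l.prod = g := by
  have hg : g ∈ Subgroup.closure S := by rw [hS]; trivial
  induction hg using Subgroup.closure_induction with
  | mem x hx => exact ⟨[x], by simpa using Or.inl hx, by simp⟩
  | one => exact ⟨[], by simp, by simp⟩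
  | mul x y _ _ hx hy =>
    obtain ⟨l, hl, rfl⟩ := hx
    obtain ⟨l', hl', rfl⟩ := hy
    refine ⟨l ++ l', ?_, by simp⟩
    intro s hs
    rcases List.mem_append.1 hs with h | h
    · exact hl s h
    · exact hl' s h
  | inv x _ hx =>
    obtain ⟨l, hl, rfl⟩ := hx
    refine ⟨(l.map fun x => x⁻¹).reverse, ?_, (List.prod_inv_reverse l).symm⟩
    intro s hs
    rw [List.mem_reverse, List.mem_map] at hs
    obtain ⟨a, ha, rfl⟩ := hs
    rcases hl a ha with h | h
    · exact Or.inr (by simpa using h)
    · exact Or.inl h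

theorem wordLength_le_of_word {l : List G} {g : G} (hl : ∀ s ∈ l, s ∈ S ∨ s⁻¹ ∈ S)
    (hg : l.prod = g) : wordLength S g ≤ l.length :=
  Nat.sInf_le ⟨l, rfl, hl, hg⟩

theorem exists_word_length (hS : Subgroup.closure S = ⊤) (g : G) :
    ∃ l : List G, l.length = wordLength S g ∧ (∀ s ∈ l, s ∈ S ∨ s⁻¹ ∈ S) ∧ l.prod = g := by
  obtain ⟨l, hl, hg⟩ := exists_word hS g
  exact Nat.sInf_mem (s := {n : ℕ | ∃ l : List G, l.length = n ∧ (∀ s ∈ l, s ∈ S ∨ s⁻¹ ∈ S) ∧
    l.prod = g}) ⟨l.length, l, rfl, hl, hg⟩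

theorem wordLength_one : wordLength S (1 : G) = 0 := by
  have := wordLength_le_of_word (S := S) (l := []) (g := 1) (by simp) (by simp)
  simpa using this

theorem wordLength_mul_le (hS : Subgroup.closure S = ⊤) (g h : G) :
    wordLength S (g * h) ≤ wordLength S g + wordLength S h := by
  obtain ⟨l, hl1, hl2, hl3⟩ := exists_word_length hS g
  obtain ⟨l', hl1', hl2', hl3'⟩ := exists_word_length hS h
  rw [← hl1, ← hl1', ← List.length_append]
  refine wordLength_le_of_word ?_ (by rw [List.prod_append, hl3, hl3'])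
  intro s hs
  rcases List.mem_append.1 hs with h | h
  · exact hl2 s h
  · exact hl2' s h

theorem wordLength_inv_le (hS : Subgroup.closure S = ⊤) (g : G) :
    wordLength S g⁻¹ ≤ wordLength S g := by
  obtain ⟨l, hl1, hl2, hl3⟩ := exists_word_length hS g
  have : ((l.map fun x => x⁻¹).reverse).length = wordLength S g := by simp [hl1]
  rw [← this]
  refine wordLength_le_of_word ?_ (by rw [← List.prod_inv_reverse, hl3])
  intro s hs
  rw [List.mem_reverse, List.mem_map] at hs
  obtain ⟨a, ha, rfl⟩ := hs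
  rcases hl2 a ha with h | h
  · exact Or.inr (by simpa using h)
  · exact Or.inl h

theorem wordLength_inv (hS : Subgroup.closure S = ⊤) (g : G) :
    wordLength S g⁻¹ = wordLength S g := by
  refine le_antisymm (wordLength_inv_le hS g) ?_
  have := wordLength_inv_le hS g⁻¹
  rwa [inv_inv] at this

theorem wordLength_gen_le {s : G} (hs : s ∈ S ∨ s⁻¹ ∈ S) : wordLength S s ≤ 1 := by
  have := wordLength_le_of_word (S := S) (l := [s]) (g := s) (by simpa using hs) (by simp)
  simpa using this

theorem finite_words (hSfin : S.Finite) (n : ℕ) :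
    {g : G | ∃ l : List G, l.length = n ∧ (∀ s ∈ l, s ∈ S ∨ s⁻¹ ∈ S) ∧ l.prod = g}.Finite := by
  induction n with
  | zero =>
    refine (Set.finite_singleton (1 : G)).subset ?_
    rintro g ⟨l, hl, _, rfl⟩
    rw [List.length_eq_zero_iff] at hl
    subst hl
    simp
  | succ n ih =>
    have hT : (S ∪ S⁻¹).Finite := hSfin.union hSfin.inv
    refine (Set.Finite.image2 (fun a b => a * b) hT ih).subset ?_
    rintro g ⟨l, hl, hl2, rfl⟩
    cases l with
    | nil => simp at hl
    | cons a l =>
      refine ⟨a, ?_, l.prod, ⟨l, by simpa using hl, fun s hs => hl2 s (List.mem_cons_of_mem a hs),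
        rfl⟩, by simp⟩
      rcases hl2 a List.mem_cons_self with h | h
      · exact Or.inl h
      · exact Or.inr (by simpa using h)

theorem finite_ball (hS : Subgroup.closure S = ⊤) (hSfin : S.Finite) (n : ℕ) :
    {g : G | wordLength S g ≤ n}.Finite := by
  have : (⋃ k ∈ Set.Iic n, {g : G | ∃ l : List G, l.length = k ∧ (∀ s ∈ l, s ∈ S ∨ s⁻¹ ∈ S) ∧
      l.prod = g}).Finite := (Set.finite_Iic n).biUnion (fun k _ => finite_words hSfin k)
  refine this.subset ?_
  intro g hg
  simp only [Set.mem_iUnion]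
  exact ⟨wordLength S g, hg, exists_word_length hS g⟩

theorem finite_ball_real (hS : Subgroup.closure S = ⊤) (hSfin : S.Finite) (r : ℝ) :
    {g : G | (wordLength S g : ℝ) ≤ r}.Finite := by
  refine (finite_ball hS hSfin ⌊r⌋₊).subset ?_
  intro g hg
  have hg' : (wordLength S g : ℝ) ≤ r := hg
  exact Nat.le_floor hg'

/-! ### the word metric -/

theorem wordDist_self (x : G) : wordDist S x x = 0 := by
  simp [wordDist, wordLength_one]

theorem wordDist_nonneg (x y : G) : 0 ≤ wordDist S x y := by
  simp [wordDist]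

theorem wordDist_comm (hS : Subgroup.closure S = ⊤) (x y : G) :
    wordDist S x y = wordDist S y x := by
  unfold wordDist
  rw [← wordLength_inv hS (x⁻¹ * y)]
  simp

theorem wordDist_triangle (hS : Subgroup.closure S = ⊤) (x y z : G) :
    wordDist S x z ≤ wordDist S x y + wordDist S y z := by
  unfold wordDist
  have := wordLength_mul_le hS (x⁻¹ * y) (y⁻¹ * z)
  have h2 : x⁻¹ * y * (y⁻¹ * z) = x⁻¹ * z := by group
  rw [h2] at this
  exact_mod_cast this

theorem wordDist_mul_left (g x y : G) : wordDist S (g * x) (g * y) = wordDist S x y := by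
  unfold wordDist
  congr 2
  group

theorem finite_wordDist_ball (hS : Subgroup.closure S = ⊤) (hSfin : S.Finite) (x : G) (r : ℝ) :
    {y : G | wordDist S x y ≤ r}.Finite := by
  refine ((finite_ball_real hS hSfin r).image (fun g => x * g)).subset ?_
  intro y hy
  exact ⟨x⁻¹ * y, hy, by simp⟩

/-- a quasi-isometry (indeed any map satisfying the lower bound) has finite fibres -/
theorem finite_fibre_of_lower {H : Type*} [Group H] {SH : Set H}
    (hSH : Subgroup.closure SH = ⊤) (hSHfin : SH.Finite) (F : H → G) (K C : ℝ) (hK : 0 < K)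
    (hF : ∀ x x', K⁻¹ * wordDist SH x x' - C ≤ wordDist S (F x) (F x')) (g : G) :
    {x : H | F x = g}.Finite := by
  by_cases hne : ∃ x₀, F x₀ = g
  · obtain ⟨x₀, hx₀⟩ := hne
    refine (finite_wordDist_ball hSH hSHfin x₀ (K * C)).subset ?_
    intro x hx
    have hx' : F x = g := hx
    have h1 := hF x₀ x
    rw [hx₀, hx', wordDist_self] at h1
    show wordDist SH x₀ x ≤ K * C
    have h2 : K⁻¹ * wordDist SH x₀ x ≤ C := by linarith
    calc wordDist SH x₀ x = K * (K⁻¹ * wordDist SH x₀ x) := by field_simp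
      _ ≤ K * C := mul_le_mul_of_nonneg_left h2 hK.le
  · refine Set.finite_empty.subset ?_
    intro x hx
    exact (hne ⟨x, hx⟩).elim

end Vale.Agent.Lib.P188
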