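import Mathlib
import Vale.Agent.Lib.P188.Word
import Vale.Agent.Lib.P188.Quasi
import Vale.Agent.Lib.P188.Virt

/-!
# Quasi-isometries whose induced quasi-action is by almost affine maps
-/

namespace Vale.Agent.Lib.P188

open Subgroup

universe u v

theorem Poly.of_finiteIndex {H : Type u} [Group H] (K : Subgroup H) [K.FiniteIndex]
    (hK : Poly True K) : Poly True H := by
  have hN : Poly True K.normalCore :=
    Poly.of_injective (Subgroup.inclusion K.normalCore_le) (Subgroup.inclusion_injective _) hK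
  refine Poly.ext (QuotientGroup.mk' K.normalCore) Poly.of_finite ?_
  rw [QuotientGroup.ker_mk']
  exact hN

/-- a subgroup is of finite index as soon as membership of `x⁻¹ * y` is detected by a
finite colouring -/
theorem finiteIndex_of_colouring {H : Type u} [Group H] (K : Subgroup H) {γ : Type v} [Finite γ]
    (col : H → γ) (h : ∀ x y, col x = col y → x⁻¹ * y ∈ K) : K.FiniteIndex := by
  have : Finite (H ⧸ K) := by
    refine Finite.of_injective (fun q : H ⧸ K => col (Quotient.out q)) ?_
    intro q q' hqq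
    have h1 := h _ _ hqq
    rw [← QuotientGroup.eq] at h1
    simpa using h1
  exact Subgroup.finiteIndex_of_finite_quotient

section

variable {H : Type u} {G : Type v} [Group H] [Group G] {SH : Set H} {SG : Set G}

theorem poly_of_translation_like (hSHfin : SH.Finite) (hSGfin : SG.Finite)
    (hSH : Subgroup.closure SH = ⊤) (hSG : Subgroup.closure SG = ⊤) (hG : Poly True G)
    (F : H → G) (K C : ℝ) (hK : 0 < K)
    (hlow : ∀ x x', K⁻¹ * wordDist SH x x' - C ≤ wordDist SG (F x) (F x'))
    (L : Subgroup H) (ρ : ℝ)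
    (hL : ∀ k ∈ L, ∃ γ : G, ∀ z : H, wordDist SG (F (k * z)) (γ * F z) ≤ ρ) :
    Poly True L := by
  classical
  have hL' : ∀ k : L, ∃ γ : G, ∀ z : H, wordDist SG (F (k * z)) (γ * F z) ≤ ρ :=
    fun k => hL k k.2
  choose γ hγ using hL'
  set c := F 1 with hc
  have hfibF := finite_fibre_of_lower (S := SG) hSH hSHfin F K C hK hlow
  refine poly_of_quasihom hG γ {w : G | (wordLength SG (c⁻¹ * w⁻¹ * c) : ℝ) ≤ 3 * ρ} ?_ ?_ ?_
  · refine (finite_ball_real hSG hSGfin (3 * ρ)).preimage ?_
    intro a _ b _ hab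
    simpa using hab
  · intro k k'
    show (wordLength SG (c⁻¹ * ((γ k * γ k')⁻¹ * γ (k * k'))⁻¹ * c) : ℝ) ≤ 3 * ρ
    have e : c⁻¹ * ((γ k * γ k')⁻¹ * γ (k * k'))⁻¹ * c
        = (γ (k * k') * c)⁻¹ * (γ k * γ k' * c) := by group
    rw [e]
    show wordDist SG (γ (k * k') * c) (γ k * γ k' * c) ≤ 3 * ρ
    have h1 : wordDist SG (F ((k : H) * k')) (γ (k * k') * c) ≤ ρ := by
      have := hγ (k * k') 1
      simpa using this
    have h2 : wordDist SG (F ((k : H) * k')) (γ k * F k') ≤ ρ := hγ k k'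
    have h3 : wordDist SG (γ k * F k') (γ k * γ k' * c) ≤ ρ := by
      have := hγ k' 1
      rw [mul_one] at this
      rw [mul_assoc, wordDist_mul_left]
      exact this
    calc wordDist SG (γ (k * k') * c) (γ k * γ k' * c)
        ≤ wordDist SG (γ (k * k') * c) (F ((k : H) * k'))
          + wordDist SG (F ((k : H) * k')) (γ k * γ k' * c) := wordDist_triangle hSG _ _ _
      _ ≤ wordDist SG (γ (k * k') * c) (F ((k : H) * k'))
          + (wordDist SG (F ((k : H) * k')) (γ k * F k')
            + wordDist SG (γ k * F k') (γ k * γ k' * c)) := by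
          gcongr
          exact wordDist_triangle hSG _ _ _
      _ ≤ 3 * ρ := by
          rw [wordDist_comm hSG]
          linarith
  · intro γ₀
    have h1 : (⋃ y ∈ {y : G | wordDist SG (γ₀ * c) y ≤ ρ}, {x : H | F x = y}).Finite :=
      (finite_wordDist_ball hSG hSGfin _ _).biUnion (fun y _ => hfibF y)
    refine Set.Finite.of_finite_image (f := fun z : L => (z : H)) (h1.subset ?_)
      Subtype.val_injective.injOn
    rintro _ ⟨k, hk, rfl⟩
    simp only [Set.mem_iUnion]
    refine ⟨F k, ?_, rfl⟩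
    have hk' : γ k = γ₀ := hk
    have := hγ k 1
    rw [mul_one, hk', wordDist_comm hSG] at this
    exact this

theorem poly_of_affine (hSHfin : SH.Finite) (hSGfin : SG.Finite)
    (hSH : Subgroup.closure SH = ⊤) (hSG : Subgroup.closure SG = ⊤) (hG : Poly True G)
    (F : H → G) (K C : ℝ) (hK : 0 < K)
    (hlow : ∀ x x', K⁻¹ * wordDist SH x x' - C ≤ wordDist SG (F x) (F x'))
    (hup : ∀ x x', wordDist SG (F x) (F x') ≤ K * wordDist SH x x' + C)
    (R : ℝ) (haff : ∀ h : H, ∃ (g : G) (α : G →* G), ∀ x : H,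
      wordDist SG (F (h * x)) (g * α (F x)) ≤ R) :
    Poly True H := by
  classical
  choose g α hgα using haff
  set c := F 1 with hc
  -- increments
  set U : Set G := {w | ∃ x s, (s ∈ SH ∨ s⁻¹ ∈ SH) ∧ w = (F x)⁻¹ * F (x * s)} with hU
  have hincr : ∀ x s, (s ∈ SH ∨ s⁻¹ ∈ SH) → wordDist SG (F x) (F (x * s)) ≤ K + C := by
    intro x s hs
    have h1 := hup x (x * s)
    have h2 : wordDist SH x (x * s) ≤ 1 := by
      unfold wordDist
      have : x⁻¹ * (x * s) = s := by group
      rw [this]
      exact_mod_cast wordLength_gen_le hs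
    have h3 : K * wordDist SH x (x * s) ≤ K * 1 := mul_le_mul_of_nonneg_left h2 hK.le
    linarith
  have hUfin : U.Finite := by
    refine (finite_ball_real hSG hSGfin (K + C)).subset ?_
    rintro _ ⟨x, s, hs, rfl⟩
    exact hincr x s hs
  set BL : Set G := {w | (wordLength SG w : ℝ) ≤ 2 * R + (K + C)} with hBL
  have hBLfin : BL.Finite := finite_ball_real hSG hSGfin _
  have hαU : ∀ h, ∀ w ∈ U, α h w ∈ BL := by
    rintro h _ ⟨x, s, hs, rfl⟩
    show (wordLength SG (α h ((F x)⁻¹ * F (x * s))) : ℝ) ≤ 2 * R + (K + C)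
    have e : α h ((F x)⁻¹ * F (x * s)) = (g h * α h (F x))⁻¹ * (g h * α h (F (x * s))) := by
      rw [map_mul, map_inv]; group
    rw [e]
    show wordDist SG (g h * α h (F x)) (g h * α h (F (x * s))) ≤ 2 * R + (K + C)
    have h1 := hgα h x
    have h2 := hgα h (x * s)
    have h3 := hincr (h * x) s hs
    rw [mul_assoc] at h3
    calc wordDist SG (g h * α h (F x)) (g h * α h (F (x * s)))
        ≤ wordDist SG (g h * α h (F x)) (F (h * x))
          + wordDist SG (F (h * x)) (g h * α h (F (x * s))) := wordDist_triangle hSG _ _ _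
      _ ≤ wordDist SG (g h * α h (F x)) (F (h * x))
          + (wordDist SG (F (h * x)) (F (h * (x * s)))
            + wordDist SG (F (h * (x * s))) (g h * α h (F (x * s)))) := by
          gcongr
          exact wordDist_triangle hSG _ _ _
      _ ≤ 2 * R + (K + C) := by
          rw [wordDist_comm hSG]
          linarith
  have hUt : Finite U := hUfin.to_subtype
  have hBLt : Finite BL := hBLfin.to_subtype
  let col : H → (U → BL) := fun h w => ⟨α h w, hαU h w w.2⟩
  -- Lemma A
  have hA : ∀ x, c⁻¹ * F x ∈ Subgroup.closure U := by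
    intro x
    have hx : x ∈ Subgroup.closure SH := by rw [hSH]; trivial
    induction hx using Subgroup.closure_induction_right with
    | one => simp [hc]
    | mul_right x _ s hs ih =>
      have : c⁻¹ * F (x * s) = (c⁻¹ * F x) * ((F x)⁻¹ * F (x * s)) := by group
      rw [this]
      exact (Subgroup.closure U).mul_mem ih (Subgroup.subset_closure ⟨x, s, Or.inl hs, rfl⟩)
    | mul_inv_cancel x _ s hs ih =>
      have : c⁻¹ * F (x * s⁻¹) = (c⁻¹ * F x) * ((F x)⁻¹ * F (x * s⁻¹)) := by group
      rw [this]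
      exact (Subgroup.closure U).mul_mem ih
        (Subgroup.subset_closure ⟨x, s⁻¹, Or.inr (by simpa using hs), rfl⟩)
  -- Lemma B
  have hB : ∀ h h', col h = col h' → ∀ x, α h (c⁻¹ * F x) = α h' (c⁻¹ * F x) := by
    intro h h' hcol x
    have : Set.EqOn (α h) (α h') U := by
      intro w hw
      have := congrFun hcol ⟨w, hw⟩
      exact congrArg Subtype.val this
    exact MonoidHom.eqOn_closure this (hA x)
  -- Lemma C
  have hCl : ∀ h h', col h = col h' → ∃ γ : G, ∀ z,
      wordDist SG (F (h * h'⁻¹ * z)) (γ * F z) ≤ 2 * R := by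
    intro h h' hcol
    refine ⟨g h * α h c * (g h' * α h' c)⁻¹, ?_⟩
    intro z
    set x := h'⁻¹ * z with hx
    set w := α h (c⁻¹ * F x) with hw
    have hw' : α h' (c⁻¹ * F x) = w := (hB h h' hcol x).symm
    have e1 : g h * α h (F x) = g h * α h c * w := by
      rw [hw, mul_assoc, ← map_mul]; congr 2; group
    have e2 : g h' * α h' (F x) = g h' * α h' c * w := by
      rw [← hw', mul_assoc, ← map_mul]; congr 2; group
    have h1 := hgα h x
    have h2 := hgα h' x
    rw [e1] at h1
    rw [e2] at h2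
    have e3 : h' * x = z := by rw [hx]; group
    rw [e3] at h2
    have e4 : h * h'⁻¹ * z = h * x := by rw [hx]; group
    rw [e4]
    have e5 : g h * α h c * w = g h * α h c * (g h' * α h' c)⁻¹ * (g h' * α h' c * w) := by group
    calc wordDist SG (F (h * x)) (g h * α h c * (g h' * α h' c)⁻¹ * F z)
        ≤ wordDist SG (F (h * x)) (g h * α h c * w)
          + wordDist SG (g h * α h c * w) (g h * α h c * (g h' * α h' c)⁻¹ * F z) :=
          wordDist_triangle hSG _ _ _
      _ = wordDist SG (F (h * x)) (g h * α h c * w) + wordDist SG (g h' * α h' c * w) (F z) := by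
          congr 1
          conv_lhs => rw [e5]
          rw [wordDist_mul_left]
      _ ≤ 2 * R := by
          rw [wordDist_comm hSG (g h' * α h' c * w)]
          linarith
  -- the subgroup of elements acting almost by left translations
  let Kt : Subgroup H :=
    { carrier := {k | ∃ ρ : ℝ, ∃ γ : G, ∀ z, wordDist SG (F (k * z)) (γ * F z) ≤ ρ}
      one_mem' := ⟨0, 1, fun z => by simp [wordDist_self]⟩
      mul_mem' := by
        rintro k k' ⟨ρ, γ, h⟩ ⟨ρ', γ', h'⟩
        refine ⟨ρ + ρ', γ * γ', fun z => ?_⟩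
        have h1 := h (k' * z)
        have h2 := h' z
        rw [← mul_assoc] at h1
        calc wordDist SG (F (k * k' * z)) (γ * γ' * F z)
            ≤ wordDist SG (F (k * k' * z)) (γ * F (k' * z))
              + wordDist SG (γ * F (k' * z)) (γ * γ' * F z) := wordDist_triangle hSG _ _ _
          _ ≤ ρ + ρ' := by
              rw [mul_assoc γ γ', wordDist_mul_left]
              linarith
      inv_mem' := by
        rintro k ⟨ρ, γ, h⟩
        refine ⟨ρ, γ⁻¹, fun z => ?_⟩
        have h1 := h (k⁻¹ * z)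
        rw [mul_inv_cancel_left] at h1
        rw [← wordDist_mul_left γ, mul_inv_cancel_left, wordDist_comm hSG]
        exact h1 }
  have hKtmem : ∀ k, k ∈ Kt ↔ ∃ ρ : ℝ, ∃ γ : G, ∀ z, wordDist SG (F (k * z)) (γ * F z) ≤ ρ :=
    fun _ => Iff.rfl
  have hfi : Kt.FiniteIndex := by
    refine finiteIndex_of_colouring Kt (fun x => col x⁻¹) ?_
    intro x y hxy
    obtain ⟨γ, hγ⟩ := hCl x⁻¹ y⁻¹ hxy
    rw [inv_inv] at hγ
    exact ⟨2 * R, γ, hγ⟩
  -- uniform constant
  let rep : H → H := fun z => Set.rangeSplitting col ⟨col z, Set.mem_range_self z⟩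
  have hrep : ∀ z, col (rep z) = col z := fun z => Set.apply_rangeSplitting col _
  have hrepfin : (Set.range rep).Finite := by
    have : Set.range rep ⊆ Set.range (Set.rangeSplitting col) := by
      rintro _ ⟨z, rfl⟩
      exact ⟨_, rfl⟩
    exact (Set.finite_range _).subset this
  have hex : ∀ r : H, ∃ ρ : ℝ, r ∈ Kt → ∃ γ : G, ∀ z, wordDist SG (F (r * z)) (γ * F z) ≤ ρ := by
    intro r
    by_cases hr : r ∈ Kt
    · obtain ⟨ρ, hρ⟩ := hr
      exact ⟨ρ, fun _ => hρ⟩
    · exact ⟨0, fun h => (hr h).elim⟩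
  choose ρf hρf using hex
  obtain ⟨M, hM⟩ := (hrepfin.image ρf).bddAbove
  have hunif : ∀ k ∈ Kt, ∃ γ : G, ∀ z, wordDist SG (F (k * z)) (γ * F z) ≤ 2 * R + M := by
    intro k hk
    obtain ⟨γ₁, hγ₁⟩ := hCl k (rep k) (hrep k).symm
    have hk1 : k * (rep k)⁻¹ ∈ Kt := ⟨2 * R, γ₁, hγ₁⟩
    have hrk : rep k ∈ Kt := by
      have := Kt.mul_mem (Kt.inv_mem hk1) hk
      simpa using this
    obtain ⟨γ₂, hγ₂⟩ := hρf (rep k) hrk
    have hle : ρf (rep k) ≤ M := hM ⟨rep k, ⟨k, rfl⟩, rfl⟩
    refine ⟨γ₁ * γ₂, fun z => ?_⟩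
    have h1 := hγ₁ (rep k * z)
    have h2 := hγ₂ z
    have e : k * (rep k)⁻¹ * (rep k * z) = k * z := by group
    rw [e] at h1
    calc wordDist SG (F (k * z)) (γ₁ * γ₂ * F z)
        ≤ wordDist SG (F (k * z)) (γ₁ * F (rep k * z))
          + wordDist SG (γ₁ * F (rep k * z)) (γ₁ * γ₂ * F z) := wordDist_triangle hSG _ _ _
      _ ≤ 2 * R + M := by
          rw [mul_assoc γ₁ γ₂, wordDist_mul_left]
          linarith
  have hKtpoly : Poly True Kt :=
    poly_of_translation_like hSHfin hSGfin hSH hSG hG F K C hK hlow Kt (2 * R + M) hunif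
  exact Poly.of_finiteIndex Kt hKtpoly

end

end Vale.Agent.Lib.P188
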